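import Mathlib
import Vale.Agent.P255.Bdl.B1

/-!
# P207, line N3, R14': pull-back of a Riemannian metric under a smooth local diffeomorphism

`LD f`: `f : E → M` is a smooth local diffeomorphism. `pb g f q`: the metric `g` pulled back to the
vector space `E`. If `f₁ ∘ σ = f₂` with `σ` continuous then `σ` is smooth and an isometry of the
two pull-backs.
-/

open scoped Manifold ContDiff Topology
open Set Filter

set_option linter.unusedSectionVars false

noncomputable section

namespace Vale.Agent.P207.N3.H265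

open Vale.Agent.P255 (Metric trans contDiffAt_trans)

variable {E : Type} [NormedAddCommGroup E] [NormedSpace ℝ E] {M : Type} [TopologicalSpace M]
  [ChartedSpace E M]

/-- the map in the chart at `a` -/
def rd (f : E → M) (a : M) (x : E) : E := chartAt E a (f x)

/-- a smooth local diffeomorphism from the model space -/
structure LD (f : E → M) : Prop where
  cont : Continuous f
  smooth : ∀ q a, f q ∈ (chartAt E a).source → ContDiffAt ℝ ∞ (rd f a) q
  inj : ∀ q a, f q ∈ (chartAt E a).source → ∀ v, fderiv ℝ (rd f a) q v = 0 → v = 0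

/-- the pull-back of `g` -/
def pb (g : Metric E M) (f : E → M) (q : E) : E →L[ℝ] E →L[ℝ] ℝ :=
  (g.coef (f q) (rd f (f q) q)).bilinearComp (fderiv ℝ (rd f (f q)) q) (fderiv ℝ (rd f (f q)) q)

theorem pb_apply (g : Metric E M) (f : E → M) (q v w : E) : pb g f q v w =
    g.coef (f q) (rd f (f q) q) (fderiv ℝ (rd f (f q)) q v) (fderiv ℝ (rd f (f q)) q w) := rfl

section Mfd

variable [IsManifold 𝓘(ℝ, E) ∞ M] {g : Metric E M} {f f₁ f₂ : E → M}

/-- change of the chart -/
theorem fderiv_rd (hc : Continuous f) {q : E} {a b : M} (ha : f q ∈ (chartAt E a).source)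
    (hb : f q ∈ (chartAt E b).source) (hs : DifferentiableAt ℝ (rd f a) q) (v : E) :
    fderiv ℝ (rd f b) q v = fderiv ℝ (trans E a b) (rd f a q) (fderiv ℝ (rd f a) q v) := by
  have h1 : rd f b =ᶠ[𝓝 q] trans E a b ∘ rd f a := by
    filter_upwards [hc.continuousAt.eventually ((chartAt E a).open_source.mem_nhds ha)] with x hx
    change chartAt E b (f x) = chartAt E b ((chartAt E a).symm (chartAt E a (f x)))
    rw [(chartAt E a).left_inv hx]
  have hb' : (chartAt E a).symm (rd f a q) ∈ (chartAt E b).source := by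
    rw [rd, (chartAt E a).left_inv ha]; exact hb
  have h2 : DifferentiableAt ℝ (trans E a b) (rd f a q) :=
    (contDiffAt_trans a b ((chartAt E a).map_source ha) hb').differentiableAt (by simp)
  rw [h1.fderiv_eq, fderiv_comp q h2 hs]
  rfl

theorem rd_trans {q : E} {a b : M} (ha : f q ∈ (chartAt E a).source) :
    trans E a b (rd f a q) = rd f b q := by
  change chartAt E b ((chartAt E a).symm (chartAt E a (f q))) = chartAt E b (f q)
  rw [(chartAt E a).left_inv ha]

/-- the pull-back in any chart -/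
theorem pb_eq (g : Metric E M) (hc : Continuous f) {q : E} {a : M}
    (ha : f q ∈ (chartAt E a).source) (hs : DifferentiableAt ℝ (rd f a) q) (v w : E) :
    pb g f q v w = g.coef a (rd f a q) (fderiv ℝ (rd f a) q v) (fderiv ℝ (rd f a) q w) := by
  have hb : f q ∈ (chartAt E (f q)).source := mem_chart_source E (f q)
  rw [pb_apply, fderiv_rd hc ha hb hs, fderiv_rd hc ha hb hs, ← rd_trans ha]
  exact g.compat a (f q) (rd f a q) ((chartAt E a).map_source ha)
    (by rw [rd, (chartAt E a).left_inv ha]; exact hb) _ _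

theorem pb_symm (g : Metric E M) (f : E → M) (q v w : E) : pb g f q v w = pb g f q w v := by
  rw [pb_apply, pb_apply]
  exact g.symm _ _ ((chartAt E (f q)).map_source (mem_chart_source E (f q))) _ _

theorem pb_pos (g : Metric E M) (hf : LD f) (q v : E) (hv : v ≠ 0) : 0 < pb g f q v v := by
  rw [pb_apply]
  refine g.pos _ _ ((chartAt E (f q)).map_source (mem_chart_source E (f q))) _ fun h => ?_
  exact hv (hf.inj q (f q) (mem_chart_source E (f q)) v h)

theorem pb_nonneg (g : Metric E M) (hf : LD f) (q v : E) : 0 ≤ pb g f q v v := by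
  rcases eq_or_ne v 0 with rfl | h
  · rw [map_zero]
  · exact (pb_pos g hf q v h).le

/-- the pull-back is smooth -/
theorem contDiff_pb [FiniteDimensional ℝ E] (g : Metric E M) (hf : LD f) :
    ContDiff ℝ ∞ (pb g f) := by
  rw [contDiff_clm_apply_iff]
  intro v
  rw [contDiff_clm_apply_iff]
  intro w
  rw [contDiff_iff_contDiffAt]
  intro q
  set a := f q with ha
  have haq : f q ∈ (chartAt E a).source := mem_chart_source E (f q)
  have h0 := hf.smooth q a haq
  have h1 : ContDiffAt ℝ ∞ (fderiv ℝ (rd f a)) q := h0.fderiv_right (m := ∞) (by simp)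
  have h2 : ContDiffAt ℝ ∞ (fun x => g.coef a (rd f a x)) q := by
    have h3 : ContDiffAt ℝ ∞ (g.coef a) (rd f a q) :=
      (g.smooth a).contDiffAt ((chartAt E a).open_target.mem_nhds ((chartAt E a).map_source haq))
    exact h3.comp q h0
  have h4 : ContDiffAt ℝ ∞ (fun x => g.coef a (rd f a x) (fderiv ℝ (rd f a) x v)
      (fderiv ℝ (rd f a) x w)) q :=
    (h2.clm_apply (h1.clm_apply contDiffAt_const)).clm_apply (h1.clm_apply contDiffAt_const)
  refine h4.congr_of_eventuallyEq ?_
  filter_upwards [hf.cont.continuousAt.eventually ((chartAt E a).open_source.mem_nhds haq)]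
    with x hx
  exact pb_eq g hf.cont hx ((hf.smooth x a hx).differentiableAt (by simp)) v w

/-- **lifts are smooth** -/
theorem contDiffAt_lift [FiniteDimensional ℝ E] {σ : E → E} {q : E}
    (h1 : LD f₁) (h2 : ∀ a, f₂ q ∈ (chartAt E a).source → ContDiffAt ℝ ∞ (rd f₂ a) q)
    (hσ : ContinuousAt σ q) (h : ∀ᶠ x in 𝓝 q, f₁ (σ x) = f₂ x) : ContDiffAt ℝ ∞ σ q := by
  set a := f₂ q with ha
  have h0 : f₁ (σ q) = f₂ q := h.self_of_nhds
  have haq : f₂ q ∈ (chartAt E a).source := mem_chart_source E (f₂ q)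
  have haq1 : f₁ (σ q) ∈ (chartAt E a).source := by rw [h0]; exact haq
  have hF := h1.smooth (σ q) a haq1
  have hinj : Function.Injective (fderiv ℝ (rd f₁ a) (σ q)) := by
    intro v w hvw
    have h3 := h1.inj (σ q) a haq1 (v - w) (by rw [map_sub, hvw, sub_self])
    exact sub_eq_zero.1 h3
  set L : E ≃L[ℝ] E := (LinearEquiv.ofInjectiveEndo
    (fderiv ℝ (rd f₁ a) (σ q) : E →ₗ[ℝ] E) hinj).toContinuousLinearEquiv with hL
  have hLc : (L : E →L[ℝ] E) = fderiv ℝ (rd f₁ a) (σ q) := by
    ext v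
    rfl
  have hd : HasFDerivAt (rd f₁ a) (L : E →L[ℝ] E) (σ q) := by
    rw [hLc]
    exact (hF.differentiableAt (by simp)).hasFDerivAt
  have hn : (∞ : WithTop ℕ∞) ≠ 0 := by simp
  have h4 := hF.to_localInverse hd hn
  have h5 : ContDiffAt ℝ ∞ (rd f₂ a) q := h2 a haq
  have e0 : rd f₁ a (σ q) = rd f₂ a q := by rw [rd, rd, h0]
  rw [e0] at h4
  have h6 := h4.comp q h5
  refine h6.congr_of_eventuallyEq ?_
  have h7 : ∀ᶠ y in 𝓝 (σ q), hF.localInverse hd hn (rd f₁ a y) = y :=
    (hF.hasStrictFDerivAt' hd hn).eventually_left_inverse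
  filter_upwards [hσ.eventually h7, h] with x hx1 hx2
  change σ x = hF.localInverse hd hn (rd f₂ a x)
  conv_lhs => rw [← hx1]
  rw [rd, hx2]
  rfl

/-- lifts are isometries of the pull-backs -/
theorem pb_lift (g : Metric E M) {σ : E → E} {q : E} (c1 : Continuous f₁)
    (s1 : ∀ a, f₁ (σ q) ∈ (chartAt E a).source → DifferentiableAt ℝ (rd f₁ a) (σ q))
    (hσ : DifferentiableAt ℝ σ q) (h : ∀ᶠ x in 𝓝 q, f₁ (σ x) = f₂ x) (v w : E) :
    pb g f₁ (σ q) (fderiv ℝ σ q v) (fderiv ℝ σ q w) = pb g f₂ q v w := by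
  have h0 : f₁ (σ q) = f₂ q := h.self_of_nhds
  have ha : f₁ (σ q) ∈ (chartAt E (f₂ q)).source := by rw [h0]; exact mem_chart_source E (f₂ q)
  rw [pb_eq g c1 ha (s1 _ ha), pb_apply]
  have e1 : rd f₁ (f₂ q) ∘ σ =ᶠ[𝓝 q] rd f₂ (f₂ q) := by
    filter_upwards [h] with x hx
    change chartAt E (f₂ q) (f₁ (σ x)) = chartAt E (f₂ q) (f₂ x)
    rw [hx]
  have e2 : fderiv ℝ (rd f₂ (f₂ q)) q =
      (fderiv ℝ (rd f₁ (f₂ q)) (σ q)).comp (fderiv ℝ σ q) := by
    rw [← e1.fderiv_eq, fderiv_comp q (s1 _ ha) hσ]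
  have e3 : rd f₁ (f₂ q) (σ q) = rd f₂ (f₂ q) q := by rw [rd, rd, h0]
  rw [e2, e3]
  rfl

end Mfd

end Vale.Agent.P207.N3.H265
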