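import Vale.Agent.P207.N3.H566.Hfl
import Vale.Agent.P207.Q.H892.Meas
import Vale.Agent.P207.N3.H265.Pull

/-!
# P207, line N3, R14': the exponential map is smooth (all orders), and a local diffeomorphism for a
metric of nonpositive curvature
-/

open scoped Manifold ContDiff ENNReal Topology
open Bundle MeasureTheory Set Filter

noncomputable section

set_option maxSynthPendingDepth 3
set_option linter.unusedSectionVars false

namespace Vale.Agent.P207.N3.H265

open Vale.Agent.P255 (RMetric coefIn Gam Riem IsGeo Metric Npc ExpSys toMetric geo expg cc trans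
  IsGeodesic coefL chris chrisB IsMetricOn covD continuous_expg isExp_expg noConj_of_npc)
open Vale.Agent.P207 Vale.Agent.P207.Q Vale.Agent.P207.Q.Fl Vale.Agent.P207.N3.H566

variable {n : ℕ} {M : Type} [TopologicalSpace M] [ChartedSpace (EV n) M]
  [IsManifold 𝓘(ℝ, EV n) ∞ M] {g : RMetric (EV n) M}

/-! ### the foot points of horizontal curves are geodesics -/

theorem deriv_cc_hor {c : ℝ → LF (Fin n) n M} {ξ : Fin n → ℝ}
    (h : IsHorOn g ξ c univ) {a : M} {t : ℝ} (ha : (c t).pt ∈ (chartAt (EV n) a).source) :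
    HasDerivAt (cc (E := EV n) (fun r => (c r).pt) a) (∑ i, ξ i • (chF a (c t)).2 i) t :=
  (h.eqn a t (mem_univ t) ha).fst

theorem isGeodesic_hor [NeZero n] {c : ℝ → LF (Fin n) n M} {ξ : Fin n → ℝ}
    (h : IsHorOn g ξ c univ) : IsGeodesic (mt g) (fun t => (c t).pt) := by
  have hc : Continuous (fun t => (c t).pt) :=
    continuous_LF_pt.comp (continuous_iff_continuousAt.2 fun t => h.cont t (mem_univ t))
  refine ⟨hc.continuousOn, fun a t _ ha => ?_⟩
  have hev : ∀ᶠ r in 𝓝 t, (c r).pt ∈ (chartAt (EV n) a).source :=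
    hc.continuousAt.preimage_mem_nhds ((chartAt (EV n) a).open_source.mem_nhds ha)
  have h1 := deriv_cc_hor h ha
  have h2 : deriv (cc (E := EV n) (fun r => (c r).pt) a) =ᶠ[𝓝 t]
      fun r => ∑ i, ξ i • (chF a (c r)).2 i := by
    filter_upwards [hev] with r hr
    exact (deriv_cc_hor h hr).deriv
  have h3 : ∀ i, HasDerivAt (fun r => (chF a (c r)).2 i)
      (- chris ((mt g).coef a) (chF a (c t)).1 (∑ i, ξ i • (chF a (c t)).2 i)
        ((chF a (c t)).2 i)) t := fun i =>
    (hasDerivAt_pi.1 (h.eqn a t (mem_univ t) ha).snd) i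
  have h3' : HasDerivAt (fun r => ∑ i, ξ i • (chF a (c r)).2 i)
      (∑ i, ξ i • (- chris ((mt g).coef a) (chF a (c t)).1 (∑ i, ξ i • (chF a (c t)).2 i)
        ((chF a (c t)).2 i))) t := HasDerivAt.fun_sum fun i _ => (h3 i).const_smul (ξ i)
  have h4 := h3'.congr_of_eventuallyEq h2
  refine ⟨h1.differentiableAt, h4.differentiableAt, ?_⟩
  rw [h4.deriv, h1.deriv]
  simp only [← P255.chrisB_apply, smul_neg, Finset.sum_neg_distrib]
  rw [neg_inj]
  conv_rhs => rw [map_sum]
  simp only [map_smul]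
  rfl

section Flow

variable [NeZero n] [CompactSpace M] [T2Space M] [Nonempty (Fr g)]

/-- the foot point of the horizontal flow -/
theorem flow_pt (ξ : Fin n → ℝ) (f : Fr g) (s : ℝ) :
    (CSys.flow (horVF g ξ) s f).pt = geo (mt g) f.pt (∑ i, ξ i • f.e i) s := by
  have hΦ := isHorFlow_flow g ξ
  have h0 : CSys.flow (horVF g ξ) 0 f = f := hΦ.zero f
  have h1 := (hΦ f).2
  have h2 := isGeodesic_hor h1
  have h3 : stv (fun t => (CSys.flow (horVF g ξ) t f).pt) 0 =
      (⟨f.pt, ∑ i, ξ i • f.e i⟩ : TangentBundle 𝓘(ℝ, EV n) M) := by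
    refine stv_eq_of_deriv h2 ?_ ?_
    · simp only [h0]
      rfl
    · have ha : (CSys.flow (horVF g ξ) 0 f).pt ∈ (chartAt (EV n) f.pt).source := by
        rw [h0]; exact mem_chart_source _ _
      have h4 := (deriv_cc_hor h1 ha).deriv
      refine h4.trans ?_
      refine Finset.sum_congr rfl fun i _ => ?_
      congr 1
      rw [h0]
      exact P255.fderiv_trans_self f.pt (mem_chart_target (EV n) f.pt) _
  exact congrFun (eq_geo h2 h3) s

theorem hflow_pt (ξ : Fin n → ℝ) (f : Fr g) :
    (hflow g ξ f).pt = expg (mt g) f.pt (∑ i, ξ i • f.e i) := flow_pt ξ f 1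

/-- **the exponential map is smooth of all orders in the charts** -/
theorem contDiffAt_expg_top (m : M) (v : EV n) (a : M)
    (ha : expg (mt g) m v ∈ (chartAt (EV n) a).source) :
    ContDiffAt ℝ ∞ (fun w => chartAt (EV n) a (expg (mt g) m w)) v := by
  obtain ⟨f, hf⟩ : ∃ f : Fr g, f.pt = m := by
    obtain ⟨f, hf⟩ := Vale.Agent.P207.Q.H892.exists_frame g m
    exact ⟨f, hf⟩
  subst hf
  set ξ : EV n → Fin n → ℝ := fun w i => (mt g).ip f.pt w (f.e i) with hξ
  have hξs : ContDiff ℝ ∞ ξ := by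
    rw [contDiff_pi]
    intro i
    exact (((mt g).ip f.pt).flip (f.e i)).contDiff
  have hsum : ∀ w, ∑ i, ξ w i • f.e i = w := fun w => by
    have h1 := Fr.expand f w
    conv_rhs => rw [h1]
    refine Finset.sum_congr rfl fun i _ => ?_
    rw [hξ]
    exact congrArg (fun c : ℝ => c • f.e i) (ip_eq g f.pt w (f.e i))
  have h1 : (frSys g).dif.At (fun w => hflow g (ξ w) f) v :=
    hflow_plot g (Dif.At_const (E := EV n) (u := fun _ => f) (x := (0 : EV n))
      (CSys.at_of _ (Eventually.of_forall fun y => ⟨continuousAt_const, f.pt,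
        mem_chart_source _ _, contDiffAt_const⟩)) v) (Sm.of_contDiff hξs v)
  have h2 := h1.self_of_nhds.2 a (by
    change (hflow g (ξ v) f).pt ∈ (chartAt (EV n) a).source
    rw [hflow_pt, hsum]
    exact ha)
  have h3 : ContDiffAt ℝ ∞ (fun w => ((frSys g).c a (hflow g (ξ w) f)).1) v := h2.fst
  refine h3.congr_of_eventuallyEq (Eventually.of_forall fun w => ?_)
  change chartAt (EV n) a (expg (mt g) f.pt w) = chartAt (EV n) a (hflow g (ξ w) f).pt
  rw [hflow_pt, hsum]

/-- **the exponential map of a metric of nonpositive curvature is a smooth local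
diffeomorphism** -/
theorem ld_expg (hN : Npc (mt g)) (m : M) : LD (expg (mt g) m) where
  cont := continuous_expg (mt g) m
  smooth v a ha := contDiffAt_expg_top m v a ha
  inj v a ha w hw := (isExp_expg (mt g)).injAt (noConj_of_npc hN) m v w a ha hw

end Flow

end Vale.Agent.P207.N3.H265
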