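import Vale.Agent.P207.N3.H747.Jac

/-!
# P207, line N3, S1 of SM3: the derivative of the Fermi map in the transported frame

`Mc g (x, z) : EV 3 → EV 3` is the derivative of the Fermi map at `z`, in components with respect to
the frame `Lf g (x, z)`. It is smooth along plots, an isometry for `GG`, the identity at `z = 0`,
and the derivative of `u ↦ Mc (x, (0, u)) (1, 0)` at `0` vanishes.
-/

open scoped Manifold ContDiff ENNReal Topology
open Bundle MeasureTheory Set Filter Topology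

noncomputable section

set_option maxSynthPendingDepth 3
set_option linter.unusedSectionVars false

namespace Vale.Agent.P207.N3.H265

open Vale.Agent.P255 (RMetric Metric trans chris chrisB IsMetricOn chrisB_apply)
open Vale.Agent.P207.Q Vale.Agent.P207.Q.Fl
open Vale.Agent.P207.N3.H76 (pk tl)
open Vale.Agent.P207.N3.H747

/-! ### orthonormal expansions -/

theorem orth_expand {G : EV 3 →L[ℝ] EV 3 →L[ℝ] ℝ} {e : Fin 3 → EV 3} (ho : Orth G e) (v : EV 3) :
    ∑ j, G (e j) v • e j = v := by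
  set T : (Fin 3 → ℝ) →ₗ[ℝ] EV 3 := Fintype.linearCombination ℝ e with hT
  have h1 : ∀ c i, G (e i) (T c) = c i := by
    intro c i
    rw [hT, Fintype.linearCombination_apply, map_sum]
    simp only [map_smul, smul_eq_mul, ho i, mul_ite, mul_one, mul_zero, Finset.sum_ite_eq,
      Finset.mem_univ, if_true]
  have h2 : Function.Injective T := by
    intro c d hcd
    funext i
    rw [← h1 c i, hcd, h1]
  have h3 : Function.Surjective T :=
    (LinearMap.injective_iff_surjective_of_finrank_eq_finrank (by simp)).1 h2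
  obtain ⟨c, rfl⟩ := h3 v
  simp only [h1]
  rw [hT, Fintype.linearCombination_apply]

variable {M : Type} [TopologicalSpace M] [ChartedSpace (EV 3) M] [IsManifold 𝓘(ℝ, EV 3) ∞ M]
  (g : RMetric (EV 3) M) [Nonempty (Fr g)] [CompactSpace M] [T2Space M]

/-- the derivative of the Fermi map in the frame, with the chart at `a` -/
def McH (a : M) (q : Fr g × EV 3) : EV 3 →L[ℝ] EV 3 :=
  ∑ j : Fin 3, (((mt g).coef a (Fc g a q) ((Lc g a q).2 j)).comp (DF g a q)).smulRight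
    (EuclideanSpace.single j (1 : ℝ))

/-- **the derivative of the Fermi map in the transported frame** -/
def Mc (q : Fr g × EV 3) : EV 3 →L[ℝ] EV 3 := McH g (Fp g q) q

variable {g}

theorem McH_apply (a : M) (q : Fr g × EV 3) (v : EV 3) (j : Fin 3) :
    McH g a q v j = (mt g).coef a (Fc g a q) ((Lc g a q).2 j) (DF g a q v) := by
  simp [McH, Fin.sum_univ_three, PiLp.single_apply]
  fin_cases j <;> simp

theorem Lc_trans {a b : M} {q : Fr g × EV 3} (h : q ∈ src g a) (h' : q ∈ src g b) (j : Fin 3) :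
    (Lc g b q).2 j = fderiv ℝ (trans (EV 3) a b) (Fc g a q) ((Lc g a q).2 j) := by
  have h1 := trF_chF g a b (Lf g q) h h'
  have h2 := congrFun (congrArg Prod.snd h1) j
  exact h2.symm

theorem McH_trans {a b : M} {q : Fr g × EV 3} (h : q ∈ src g a) (h' : q ∈ src g b) :
    McH g a q = McH g b q := by
  ext v j
  rw [McH_apply, McH_apply, DF_trans h h', Fc_trans (b := b) h, Lc_trans h h']
  exact ((mt g).compat a b (Fc g a q) (mem_target h) (by rw [symm_Fc h]; exact h') _ _).symm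

theorem Mc_eq {a : M} {q : Fr g × EV 3} (h : q ∈ src g a) : Mc g q = McH g a q :=
  McH_trans (mem_src_self q) h

theorem Mc_apply {a : M} {q : Fr g × EV 3} (h : q ∈ src g a) (v : EV 3) (j : Fin 3) :
    Mc g q v j = (mt g).coef a (Fc g a q) ((Lc g a q).2 j) (DF g a q v) := by
  rw [Mc_eq h, McH_apply]

theorem orth_Lc {a : M} {q : Fr g × EV 3} (h : q ∈ src g a) :
    Orth ((mt g).coef a (Fc g a q)) (Lc g a q).2 := orth_chFg g (Lf g q) a h

/-- **the derivative of the Fermi map is `Mc` in the frame** -/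
theorem DF_eq {a : M} {q : Fr g × EV 3} (h : q ∈ src g a) (v : EV 3) :
    DF g a q v = ∑ j, (Mc g q v) j • (Lc g a q).2 j := by
  simp only [Mc_apply h]
  exact (orth_expand (orth_Lc h) _).symm

theorem psm_McH {a : M} {p : Fr g × EV 3} (hp : p ∈ src g a) : PSm (McH g a) p := by
  have h1 : PSm (fun q => (mt g).coef a (Fc g a q)) p :=
    (psm_Fc hp).comp (F := (mt g).coef a) (Sm.of_contDiffOn ((mt g).smooth a)
      (chartAt (EV 3) a).open_target (mem_target hp))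
  unfold McH
  refine PSm.sum fun j _ => ?_
  have h2 : PSm (fun q => (Lc g a q).2 j) p := (psm_Lc hp).snd.apply j
  have h3 : PSm (fun q => ((mt g).coef a (Fc g a q) ((Lc g a q).2 j)).comp (DF g a q)) p :=
    (h1.clm_apply h2).clm_comp (psm_DF hp)
  exact h3.clm ((ContinuousLinearMap.smulRightL ℝ (EV 3) (EV 3)).flip
    (EuclideanSpace.single j (1 : ℝ)))

/-- **smoothness** -/
theorem psm_Mc (p : Fr g × EV 3) : PSm (Mc g) p := by
  refine (psm_McH (mem_src_self p)).congr ?_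
  filter_upwards [(isOpen_src (Fp g p)).mem_nhds (mem_src_self p)] with q hq
  exact Mc_eq hq

theorem jc_Mc : JC (fun (x : Fr g) z => Mc g (x, z)) univ :=
  jc_of_psm isOpen_univ fun p _ => psm_Mc p

theorem continuous_Mc : Continuous (Mc g) :=
  continuous_iff_continuousAt.2 fun p =>
    continuousAt_of_psm isOpen_univ (mem_univ p) fun q _ => psm_Mc q

/-- **`Mc` is an isometry from the Fermi metric to the Euclidean metric** -/
theorem inner_Mc (q : Fr g × EV 3) (v w : EV 3) :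
    inner ℝ (Mc g q v) (Mc g q w) = GG g q v w := by
  have h := mem_src_self q
  rw [GG_apply h, DF_eq h v, EuclideanSpace.inner_eq_star_dotProduct]
  simp only [map_sum, map_smul, sum_apply, smul_apply, smul_eq_mul, ← Mc_apply h]
  simp [dotProduct, mul_comm]

theorem norm_Mc_sq (q : Fr g × EV 3) (v : EV 3) : ‖Mc g q v‖ ^ 2 = GG g q v v := by
  rw [← real_inner_self_eq_norm_sq, inner_Mc]

theorem mem_src_zero (x : Fr g) : ((x, 0) : Fr g × EV 3) ∈ src g x.pt := by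
  have h1 : Fp g (x, 0) = x.pt := by rw [Fp, Lf_zero]
  simp only [src, mem_ofPred_eq, h1]
  exact mem_chart_source _ _

theorem Lc_zero (a : M) (x : Fr g) : Lc g a (x, 0) = chF a x.1 := by
  unfold Lc
  rw [Lf_zero]

/-- **on the axis, at the origin** -/
theorem Mc_zero (x : Fr g) (v : EV 3) : Mc g (x, 0) v = v := by
  have hx : x.pt ∈ (chartAt (EV 3) x.pt).source := mem_chart_source _ _
  have h0 := mem_src_zero x
  ext j
  rw [Mc_apply h0, DF_zero hx]
  have h2 := orth_Lc h0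
  rw [Lc_zero] at h2 ⊢
  simp only [map_sum, map_smul, smul_eq_mul, h2 j, mul_ite, mul_one, mul_zero, Finset.sum_ite_eq,
    Finset.mem_univ, if_true]

theorem Mc_zero' (x : Fr g) : Mc g (x, 0) = ContinuousLinearMap.id ℝ (EV 3) :=
  ContinuousLinearMap.ext fun v => Mc_zero x v

/-- **translation along the axis** -/
theorem Mc_shift (x : Fr g) (z : EV 3) (s : ℝ) :
    Mc g (x, z + EuclideanSpace.single 0 s) = Mc g (fl g s x, z) := by
  unfold Mc
  rw [Fp_shift]
  ext v j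
  rw [McH_apply, McH_apply, DF_shift, Fc_shift]
  unfold Lc
  rw [Lf_shift]

theorem Mc_pk (x : Fr g) (s : ℝ) (u : E2) : Mc g (x, pk s u) = Mc g (fl g s x, pk 0 u) := by
  rw [pk_eq, Mc_shift]

theorem Mc_injective {ρ : ℝ} (h : TubeR g ρ) (x : Fr g) {z : EV 3} (hz : z ∈ tube ρ) :
    Function.Injective (Mc g (x, z)) := by
  rw [injective_iff_map_eq_zero]
  intro v hv
  by_contra hne
  have h1 := (h.isMetricOn x).pos z hz v hne
  rw [← norm_Mc_sq, hv, norm_zero] at h1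
  norm_num at h1

/-- **bijective in the tube** -/
theorem Mc_bijective {ρ : ℝ} (h : TubeR g ρ) (x : Fr g) {z : EV 3} (hz : z ∈ tube ρ) :
    Function.Bijective (Mc g (x, z)) :=
  ⟨Mc_injective h x hz, (LinearMap.injective_iff_surjective
    (f := (Mc g (x, z)).toLinearMap)).1 (Mc_injective h x hz)⟩

theorem norm_Mc_ge {ρ : ℝ} (h : TubeR g ρ) (x : Fr g) {z : EV 3} (hz : z ∈ tube ρ) (v : EV 3) :
    1 / 2 * ‖v‖ ^ 2 ≤ ‖Mc g (x, z) v‖ ^ 2 ∧ ‖Mc g (x, z) v‖ ^ 2 ≤ 2 * ‖v‖ ^ 2 := by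
  rw [norm_Mc_sq]
  exact h.bound x hz v

/-! ### the derivative across the axis -/

theorem dir_pk (a : E2) (r : ℝ) : dir (pk 0 (r • a)) = r • dir (pk 0 a) := by
  unfold dir
  ext i
  fin_cases i <;> simp

theorem Lf_ray (x : Fr g) (a : E2) (r : ℝ) :
    Lf g (x, pk 0 (r • a)) = CSys.flow (horVF g (dir (pk 0 a))) r x := by
  unfold Lf
  simp only [dir_pk, flow_smul, mul_one, H76.pk_zero, fl_zero]

theorem sum_dir (a : E2) (e : Fin 3 → EV 3) :
    ∑ i, dir (pk 0 a) i • e i = ∑ i, (pk 0 a : EV 3) i • e i := by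
  refine Finset.sum_congr rfl fun i _ => ?_
  congr 1

theorem sm_Mc_disc (x : Fr g) (u : E2) : Sm (fun u : E2 => Mc g (x, pk 0 u)) u := by
  have h1 : PSm (fun q : Fr g × E2 => Mc g (q.1, pk 0 q.2)) (x, u) :=
    PSm.pull (H := Mc g) (φ := fun e : E2 => (pk 0 e : EV 3)) (psm_Mc _)
      (Sm.of_contDiff (contDiff_pk' contDiff_const contDiff_id) _)
  exact h1.slice

/-- **(HU)** the derivative of `u ↦ Mc (x, (0, u)) (1, 0)` vanishes at `0`. -/
theorem fderiv_Mc (x : Fr g) : fderiv ℝ (fun u : E2 => Mc g (x, pk 0 u) (pk 1 0)) 0 = 0 := by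
  obtain ⟨ρ, hρ⟩ := exists_tubeR (g := g)
  set a₀ : M := x.pt with ha₀
  have hx : x.pt ∈ (chartAt (EV 3) a₀).source := mem_chart_source _ _
  have hd : DifferentiableAt ℝ (fun u : E2 => Mc g (x, pk 0 u) (pk 1 0)) 0 :=
    (sm_Mc_disc x 0).differentiableAt.clm_apply (differentiableAt_const _)
  ext1 a
  set D : EV 3 := fderiv ℝ (fun u : E2 => Mc g (x, pk 0 u) (pk 1 0)) 0 a with hD
  change D = 0
  -- the ray
  have hray : HasDerivAt (fun r : ℝ => r • a) a 0 := by
    simpa using (hasDerivAt_id (0 : ℝ)).smul_const a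
  have hray3 : HasDerivAt (fun r : ℝ => (pk 0 (r • a) : EV 3)) (pk 0 a) 0 :=
    pkC.hasFDerivAt.comp_hasDerivAt (0 : ℝ) ((hasDerivAt_const (0 : ℝ) (0 : ℝ)).prodMk hray)
  have h0 : (pk 0 ((0 : ℝ) • a) : EV 3) = 0 := by rw [zero_smul]; exact pk_zero_zero
  -- the components
  have hc : HasDerivAt (fun r : ℝ => Mc g (x, pk 0 (r • a)) (pk 1 0)) D 0 := by
    refine HasFDerivAt.comp_hasDerivAt_of_eq (l := fun u : E2 => Mc g (x, pk 0 u) (pk 1 0)) 0
      hd.hasFDerivAt hray ?_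
    rw [zero_smul]
  -- the frame
  have hL : HasDerivAt (fun r : ℝ => (Lc g a₀ (x, pk 0 (r • a))).2)
      (fun j => - chris ((mt g).coef a₀) (chF a₀ x.1).1 (∑ i, (pk 0 a : EV 3) i • (chF a₀ x.1).2 i)
        ((chF a₀ x.1).2 j)) 0 := by
    have h1' := (isHorFlow_flow g (dir (pk 0 a))).eqn x (a := a₀) (t := 0)
      (by rw [CSys.flow_zero]; exact hx)
    rw [CSys.flow_zero] at h1'
    have h1 : HasDerivAt (fun r : ℝ => (chF a₀ (CSys.flow (horVF g (dir (pk 0 a))) r x).1).2)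
      (hF ((mt g).coef a₀) (dir (pk 0 a)) (chF a₀ x.1)).2 0 := h1'.snd
    have h2 : (fun r : ℝ => (Lc g a₀ (x, pk 0 (r • a))).2) =
        fun r => (chF a₀ (CSys.flow (horVF g (dir (pk 0 a))) r x).1).2 := by
      funext r
      unfold Lc
      rw [Lf_ray]
    rw [h2]
    refine h1.congr_deriv ?_
    funext j
    change - chris ((mt g).coef a₀) (chF a₀ x.1).1
      (∑ i, dir (pk 0 a) i • (chF a₀ x.1).2 i) ((chF a₀ x.1).2 j) = _
    rw [sum_dir]
  -- the derivative of the map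
  have hsrc : ((x, 0) : Fr g × EV 3) ∈ src g a₀ := mem_src_zero x
  have hφ : HasDerivAt (fun r : ℝ => DF g a₀ (x, pk 0 (r • a)) (pk 1 0))
      (- chris ((mt g).coef a₀) (chF a₀ x.1).1 (∑ i, (pk 0 a : EV 3) i • (chF a₀ x.1).2 i)
        ((chF a₀ x.1).2 0)) 0 := by
    have h1 : HasDerivAt (fun r : ℝ => DF g a₀ (x, pk 0 (r • a)))
        (fderiv ℝ (fun z => DF g a₀ (x, z)) 0 (pk 0 a)) 0 := by
      refine HasFDerivAt.comp_hasDerivAt_of_eq (l := fun z => DF g a₀ (x, z)) 0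
        (sm_DF hsrc).differentiableAt.hasFDerivAt hray3 ?_
      exact h0.symm
    have h2 := h1.clm_apply (hasDerivAt_const (0 : ℝ) (pk 1 0 : EV 3))
    simp only [map_zero, add_zero] at h2
    refine h2.congr_deriv ?_
    have hz : (0 : EV 3) ∈ tube ρ := by
      have := mem_tube_axis hρ 0
      rwa [pk_zero_zero] at this
    have h3 := CH_trans hρ hz hsrc (pk 0 a) (pk 1 0)
    have h4 : CH g (x, 0) (pk 0 a) (pk 1 0) = 0 := by
      have h5 := CH_symm hρ hz (x := x) (pk 0 a) (pk 1 0)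
      have h6 := CH_axis hρ x 0 (pk 0 a)
      rw [pk_zero_zero] at h6
      rw [h5, h6]
    rw [h4, map_zero] at h3
    have h7 : fderiv ℝ (fun z => DF g a₀ (x, z)) 0 (pk 0 a) (pk 1 0) =
        - chris ((mt g).coef a₀) (Fc g a₀ (x, 0)) (DF g a₀ (x, 0) (pk 0 a))
          (DF g a₀ (x, 0) (pk 1 0)) := by
      rw [eq_neg_iff_add_eq_zero, add_comm]
      exact h3.symm
    rw [h7, DF_zero hx, DF_zero hx]
    have h8 : Fc g a₀ (x, 0) = (chF a₀ x.1).1 := by
      unfold Fc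
      rw [Lc_zero]
    rw [h8]
    congr 2
    simp [Fin.sum_univ_three, pk]
  -- comparison
  have hev : ∀ᶠ r : ℝ in 𝓝 0, ((x, pk 0 (r • a)) : Fr g × EV 3) ∈ src g a₀ := by
    have h1 : ContinuousAt (fun r : ℝ => ((x, pk 0 (r • a)) : Fr g × EV 3)) 0 :=
      continuousAt_const.prodMk hray3.continuousAt
    refine h1.eventually ((isOpen_src a₀).mem_nhds ?_)
    change ((x, pk 0 ((0 : ℝ) • a)) : Fr g × EV 3) ∈ src g a₀
    rw [h0]
    exact hsrc
  have hsum : HasDerivAt (fun r : ℝ => ∑ j, (Mc g (x, pk 0 (r • a)) (pk 1 0)) j •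
      (Lc g a₀ (x, pk 0 (r • a))).2 j)
      (∑ j, ((pk 1 0 : EV 3) j • (- chris ((mt g).coef a₀) (chF a₀ x.1).1
        (∑ i, (pk 0 a : EV 3) i • (chF a₀ x.1).2 i) ((chF a₀ x.1).2 j)) +
        D j • (chF a₀ x.1).2 j)) 0 := by
    refine HasDerivAt.fun_sum fun j _ => ?_
    have h1 : HasDerivAt (fun r : ℝ => (Mc g (x, pk 0 (r • a)) (pk 1 0)) j) (D j) 0 :=
      (EuclideanSpace.proj (𝕜 := ℝ) j).hasFDerivAt.comp_hasDerivAt (0 : ℝ) hc
    have h2 := hasDerivAt_pi.1 hL j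
    have h3 := h1.smul h2
    simp only [h0, Mc_zero, Lc_zero] at h3
    exact h3
  have hφ' := hφ.congr_of_eventuallyEq (hev.mono fun r hr => (DF_eq hr (pk 1 0)).symm)
  have huniq := hsum.unique hφ'
  rw [Finset.sum_add_distrib] at huniq
  have h9 : ∑ j, (pk 1 0 : EV 3) j • (- chris ((mt g).coef a₀) (chF a₀ x.1).1
      (∑ i, (pk 0 a : EV 3) i • (chF a₀ x.1).2 i) ((chF a₀ x.1).2 j)) =
      - chris ((mt g).coef a₀) (chF a₀ x.1).1
        (∑ i, (pk 0 a : EV 3) i • (chF a₀ x.1).2 i) ((chF a₀ x.1).2 0) := by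
    simp [Fin.sum_univ_three, pk]
  rw [h9, add_eq_left] at huniq
  -- the frame is independent
  have ho := orth_chFg g x a₀ hx
  ext j
  have h10 := congrArg ((mt g).coef a₀ (chF a₀ x.1).1 ((chF a₀ x.1).2 j)) huniq
  simp only [map_sum, map_smul, smul_eq_mul, ho j, mul_ite, mul_one, mul_zero,
    Finset.sum_ite_eq, Finset.mem_univ, if_true, map_zero] at h10
  exact h10

theorem hasFDerivAt_Mc (x : Fr g) :
    HasFDerivAt (fun u : E2 => Mc g (x, pk 0 u) (pk 1 0)) (0 : E2 →L[ℝ] EV 3) 0 := by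
  have h := ((sm_Mc_disc x 0).differentiableAt.clm_apply
    (differentiableAt_const (pk 1 0 : EV 3))).hasFDerivAt
  rwa [fderiv_Mc] at h

/-! ### the direction field in components -/

/-- the vector of the graph of `gs`, in the transported frame -/
def wt (g : RMetric (EV 3) M) [Nonempty (Fr g)] (gs : Fr g → E2 → E2) (x : Fr g) (u : E2) : EV 3 :=
  Mc g (x, pk 0 u) (pk 1 (gs x u))

/-- its direction -/
def zt (g : RMetric (EV 3) M) [Nonempty (Fr g)] (gs : Fr g → E2 → E2) (x : Fr g) (u : E2) : EV 3 :=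
  ‖wt g gs x u‖⁻¹ • wt g gs x u

theorem mem_tube_disc {ρ : ℝ} {u : E2} (hu : ‖u‖ < ρ) : (pk 0 u : EV 3) ∈ tube ρ := by
  change ‖tl (pk 0 u)‖ < ρ
  rwa [H76.tl_pk]

variable {gs : Fr g → E2 → E2}

theorem wt_ne {ρ : ℝ} (h : TubeR g ρ) (x : Fr g) {u : E2} (hu : ‖u‖ < ρ) : wt g gs x u ≠ 0 := by
  intro h0
  have h1 : (pk 1 (gs x u) : EV 3) = 0 :=
    Mc_injective h x (mem_tube_disc hu) (h0.trans (map_zero _).symm)
  have h2 : (pk 1 (gs x u) : EV 3) 0 = 0 := by rw [h1]; rfl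
  rw [H76.pk_zero] at h2
  exact one_ne_zero h2

theorem norm_wt_pos {ρ : ℝ} (h : TubeR g ρ) (x : Fr g) {u : E2} (hu : ‖u‖ < ρ) :
    0 < ‖wt g gs x u‖ := norm_pos_iff.2 (wt_ne h x hu)

theorem norm_zt {ρ : ℝ} (h : TubeR g ρ) (x : Fr g) {u : E2} (hu : ‖u‖ < ρ) :
    ‖zt g gs x u‖ = 1 := by
  rw [zt, norm_smul, norm_inv, norm_norm, inv_mul_cancel₀ (norm_wt_pos h x hu).ne']

theorem wt_eq {ρ : ℝ} (h : TubeR g ρ) (x : Fr g) {u : E2} (hu : ‖u‖ < ρ) :
    wt g gs x u = ‖wt g gs x u‖ • zt g gs x u := by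
  rw [zt, smul_smul, mul_inv_cancel₀ (norm_wt_pos h x hu).ne', one_smul]

theorem wt_zero (x : Fr g) (h0 : gs x 0 = 0) : wt g gs x 0 = pk 1 0 := by
  rw [wt, h0, pk_zero_zero, Mc_zero]

theorem zt_zero (x : Fr g) (h0 : gs x 0 = 0) : zt g gs x 0 = pk 1 0 := by
  have h1 : ‖(pk 1 0 : EV 3)‖ = 1 := H76.norm_e0
  rw [zt, wt_zero x h0, h1, inv_one, one_smul]

/-- `pk 0` as a continuous linear map -/
def pk0C : E2 →L[ℝ] EV 3 := pkC.comp (ContinuousLinearMap.inr ℝ ℝ E2)

theorem pk0C_apply (a : E2) : pk0C a = pk 0 a := rfl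

theorem hasFDerivAt_wt (x : Fr g) (h0 : gs x 0 = 0) {U : E2 →L[ℝ] E2}
    (hU : HasFDerivAt (gs x) U 0) : HasFDerivAt (wt g gs x) (pk0C.comp U) 0 := by
  have h1 : HasFDerivAt (fun u : E2 => Mc g (x, pk 0 u))
      (fderiv ℝ (fun u : E2 => Mc g (x, pk 0 u)) 0) 0 :=
    (sm_Mc_disc x 0).differentiableAt.hasFDerivAt
  have h2 : HasFDerivAt (fun u : E2 => (pk 1 (gs x u) : EV 3)) (pk0C.comp U) 0 := by
    have h3 := pkC.hasFDerivAt.comp (0 : E2) ((hasFDerivAt_const (1 : ℝ) (0 : E2)).prodMk hU)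
    refine h3.congr_fderiv ?_
    ext1 a
    rfl
  have h3 := h1.clm_apply h2
  have h4 := h1.clm_apply (hasFDerivAt_const (pk 1 0 : EV 3) (0 : E2))
  have h5 := h4.unique (hasFDerivAt_Mc x)
  refine h3.congr_fderiv ?_
  ext1 a
  have h6 := congrArg (fun L : E2 →L[ℝ] EV 3 => L a) h5
  simp only [add_apply, ContinuousLinearMap.comp_apply, ContinuousLinearMap.flip_apply,
    map_zero, zero_add, zero_apply] at h6
  simp only [add_apply, ContinuousLinearMap.comp_apply, ContinuousLinearMap.flip_apply, h0, h6,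
    add_zero, pk_zero_zero, Mc_zero]

/-- **the derivative of the direction field at the centre is the slope operator** -/
theorem hasFDerivAt_zt (x : Fr g) (h0 : gs x 0 = 0) {U : E2 →L[ℝ] E2}
    (hU : HasFDerivAt (gs x) U 0) : HasFDerivAt (zt g gs x) (pk0C.comp U) 0 := by
  have h1 := hasFDerivAt_wt x h0 hU
  have hw0 := wt_zero (g := g) x h0
  have hn0 : ‖wt g gs x 0‖ = 1 := by rw [hw0]; exact H76.norm_e0
  have h2 : HasFDerivAt (fun u => ‖wt g gs x u‖ ^ 2) (0 : E2 →L[ℝ] ℝ) 0 := by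
    have h3 := h1.norm_sq
    refine h3.congr_fderiv ?_
    ext1 a
    have h4 : inner ℝ (pk 1 0 : EV 3) (pk 0 (U a)) = (0 : ℝ) := by
      rw [EuclideanSpace.inner_eq_star_dotProduct]
      simp [dotProduct, Fin.sum_univ_three, pk]
    simp only [smul_apply, ContinuousLinearMap.comp_apply, innerSL_apply_apply, hw0, pk0C_apply, h4,
      smul_zero, zero_apply]
  have h3 : HasFDerivAt (fun u => ‖wt g gs x u‖⁻¹) (0 : E2 →L[ℝ] ℝ) 0 := by
    have h4 : (fun u => ‖wt g gs x u‖⁻¹) = fun u => (Real.sqrt (‖wt g gs x u‖ ^ 2))⁻¹ := by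
      funext u
      rw [Real.sqrt_sq (norm_nonneg _)]
    rw [h4]
    have h5 : HasDerivAt (fun r : ℝ => (Real.sqrt r)⁻¹)
        (-(1 / (2 * Real.sqrt (‖wt g gs x 0‖ ^ 2))) / Real.sqrt (‖wt g gs x 0‖ ^ 2) ^ 2)
        (‖wt g gs x 0‖ ^ 2) := by
      refine (Real.hasDerivAt_sqrt ?_).inv ?_
      · rw [hn0]; norm_num
      · rw [hn0]; norm_num
    have h6 := h5.comp_hasFDerivAt (0 : E2) h2
    rw [smul_zero] at h6
    exact h6
  have h4 := h3.smul h1
  refine h4.congr_fderiv ?_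
  ext1 a
  simp [hn0]

/-- **smooth dependence** -/
theorem jc_wt {S : Set (Fr g × E2)} (hgs : JC gs S) : JC (wt g gs) S := by
  have h1 : JC (fun (_ : Fr g) (u : E2) => (pk 0 u : EV 3)) S :=
    JC.of_contDiff (contDiff_pk' contDiff_const contDiff_id) hgs.isOpen
  have h2 : JC (fun (x : Fr g) (u : E2) => Mc g (x, pk 0 u)) S :=
    (jc_Mc (g := g)).comp' h1 fun _ _ => mem_univ _
  have h3 : JC (fun (x : Fr g) (u : E2) => (pk 1 (gs x u) : EV 3)) S :=
    JC.comp_contDiff (contDiff_pk' contDiff_const contDiff_id) hgs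
  exact h2.clm_apply h3

theorem jc_zt {S : Set (Fr g × E2)} (hgs : JC gs S) {ρ : ℝ} (h : TubeR g ρ)
    (hS : ∀ p ∈ S, ‖p.2‖ < ρ) : JC (zt g gs) S := by
  have h1 := jc_wt hgs
  have h2 : JC (fun (x : Fr g) (u : E2) => inner ℝ (wt g gs x u) (wt g gs x u)) S := h1.inner h1
  have h3 : JC (fun (x : Fr g) (u : E2) => ‖wt g gs x u‖) S := by
    refine (h2.sqrt fun p hp => ?_).congr fun p hp => ?_
    · rw [real_inner_self_eq_norm_sq]
      exact pow_pos (norm_wt_pos h p.1 (hS p hp)) 2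
    · rw [real_inner_self_eq_norm_sq, Real.sqrt_sq (norm_nonneg _)]
  have h4 : JC (fun (x : Fr g) (u : E2) => (1 : ℝ) / ‖wt g gs x u‖) S :=
    (JC.const hgs.isOpen (1 : ℝ)).div h3 fun p hp => (norm_wt_pos h p.1 (hS p hp)).ne'
  refine (h4.smul h1).congr fun p _ => ?_
  rw [zt, one_div]

end Vale.Agent.P207.N3.H265
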